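import Vale.Agent.P132.Tomita.Std
import Vale.Agent.P096.Iface

/-!
# From forms on the commutant to the linear map

A linear functional on the commutant which is near `k ↦ ⟨Ω, x kΩ⟩` on squares comes from an
element of the algebra near `x`; so an ultrafilter of bilinear forms gives the linear map.
-/

namespace Vale.Agent.P096.III.Pinned

open scoped InnerProductSpace Topology ComplexOrder ComplexConjugate
open Filter
open Vale.Agent.P132
open Vale.Agent.P082 (Alg)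

universe u v

variable {H : Type u} [NormedAddCommGroup H] [InnerProductSpace ℂ H] [CompleteSpace H]
  {M N : VonNeumannAlgebra H} {Ω : H}

/-- The evaluation at `Ω`. -/
noncomputable def evΩ (N : VonNeumannAlgebra H) (Ω : H) : Alg N →ₗ[ℂ] H where
  toFun a := (a : H →L[ℂ] H) Ω
  map_add' _ _ := rfl
  map_smul' _ _ := rfl

theorem denseRange_evΩ (hcs : IsCS N Ω) : DenseRange (evΩ N Ω) := by
  intro ξ
  rw [Metric.mem_closure_iff]
  intro e he
  obtain ⟨x, hx, hxv⟩ := hcs.cyclic ξ (e / 2) (half_pos he)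
  exact ⟨x Ω, ⟨⟨x, hx⟩, rfl⟩, by rw [dist_comm, dist_eq_norm]; linarith⟩

/-- Operators are determined by their forms on the vectors of the commutant. -/
theorem op_ext (hcs : IsCS N Ω) {S T : H →L[ℂ] H}
    (h : ∀ k₁ ∈ N.commutant, ∀ k₂ ∈ N.commutant, ⟪k₁ Ω, S (k₂ Ω)⟫_ℂ = ⟪k₁ Ω, T (k₂ Ω)⟫_ℂ) :
    S = T := by
  have hd := denseRange_evΩ (Tomita.isCS_commutant hcs)
  ext v
  refine hd.induction_on (p := fun v => S v = T v) v (isClosed_eq S.continuous T.continuous) ?_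
  intro b
  refine ext_inner_left ℂ fun w => ?_
  refine hd.induction_on (p := fun w => ⟪w, S (evΩ _ Ω b)⟫_ℂ = ⟪w, T (evΩ _ Ω b)⟫_ℂ) w
    (isClosed_eq (continuous_id.inner continuous_const) (continuous_id.inner continuous_const)) ?_
  intro a
  exact h a a.2 b b.2

/-- A bounded sesquilinear form on `N.commutant Ω` is an operator. -/
theorem exists_op {B : Alg N.commutant → Alg N.commutant → ℂ} (hcs : IsCS N Ω)
    (hadd₁ : ∀ a a' b, B (a + a') b = B a b + B a' b)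
    (hsmul₁ : ∀ (z : ℂ) a b, B (z • a) b = conj z * B a b)
    (hadd₂ : ∀ a b b', B a (b + b') = B a b + B a b')
    (hsmul₂ : ∀ (z : ℂ) a b, B a (z • b) = z * B a b) {C : ℝ} (hC : 0 ≤ C)
    (hB : ∀ a b, ‖B a b‖ ≤ C * ‖evΩ _ Ω a‖ * ‖evΩ _ Ω b‖) :
    ∃ T : H →L[ℂ] H, ‖T‖ ≤ C ∧ ∀ a b, ⟪evΩ _ Ω a, T (evΩ _ Ω b)⟫_ℂ = B a b := by
  have hd := denseRange_evΩ (Tomita.isCS_commutant hcs)
  set e := evΩ N.commutant Ω
  let row : Alg N.commutant → (Alg N.commutant →ₗ[ℂ] ℂ) := fun b =>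
    { toFun := fun a => conj (B a b)
      map_add' := fun a a' => by simp [hadd₁]
      map_smul' := fun z a => by simp [hsmul₁] }
  have hrow : ∀ b a, ‖row b a‖ ≤ C * ‖e b‖ * ‖e a‖ := fun b a => by
    show ‖conj (B a b)‖ ≤ _
    rw [RCLike.norm_conj]
    exact (hB a b).trans_eq (by ring)
  let R : Alg N.commutant → H := fun b =>
    (InnerProductSpace.toDual ℂ H).symm ((row b).extendOfNorm e)
  have hR : ∀ a b, ⟪e a, R b⟫_ℂ = B a b := fun a b => by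
    rw [← inner_conj_symm, InnerProductSpace.toDual_symm_apply,
      LinearMap.extendOfNorm_eq hd ⟨_, hrow b⟩]
    exact Complex.conj_conj _
  have hRn : ∀ b, ‖R b‖ ≤ C * ‖e b‖ := fun b => by
    rw [LinearIsometryEquiv.norm_map]
    exact LinearMap.opNorm_extendOfNorm_le hd (by positivity) (hrow b)
  have hRext : ∀ v w : H, (∀ a, ⟪e a, v⟫_ℂ = ⟪e a, w⟫_ℂ) → v = w := fun v w h =>
    ext_inner_left ℂ fun u => hd.induction_on (p := fun u => ⟪u, v⟫_ℂ = ⟪u, w⟫_ℂ) u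
      (isClosed_eq (continuous_id.inner continuous_const) (continuous_id.inner continuous_const)) h
  let Rl : Alg N.commutant →ₗ[ℂ] H :=
    { toFun := R
      map_add' := fun b b' => hRext _ _ fun a => by simp [hR, hadd₂]
      map_smul' := fun z b => hRext _ _ fun a => by simp [hR, hsmul₂] }
  refine ⟨Rl.extendOfNorm e, LinearMap.opNorm_extendOfNorm_le hd hC hRn, fun a b => ?_⟩
  rw [LinearMap.extendOfNorm_eq hd ⟨C, hRn⟩]
  exact hR a b

/-- A functional on the commutant near the one of `x` on squares comes from the algebra. -/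
theorem exists_mem_of_form (hcs : IsCS N Ω) {x : H →L[ℂ] H} {φ : (H →L[ℂ] H) → ℂ}
    (hadd : ∀ k ∈ N.commutant, ∀ l ∈ N.commutant, φ (k + l) = φ k + φ l)
    (hsmul : ∀ (z : ℂ), ∀ k ∈ N.commutant, φ (z • k) = z * φ k) {η : ℝ} (hη : 0 ≤ η)
    (h : ∀ k ∈ N.commutant, ‖φ (star k * k) - ⟪k Ω, x (k Ω)⟫_ℂ‖ ≤ η * ‖k Ω‖ ^ 2) :
    ∃ T ∈ N, ‖T - x‖ ≤ 2 * η ∧
      ∀ k₁ ∈ N.commutant, ∀ k₂ ∈ N.commutant, ⟪k₁ Ω, T (k₂ Ω)⟫_ℂ = φ (star k₁ * k₂) := by
  have hsm : ∀ (z : ℂ), ∀ k ∈ N.commutant, z • k ∈ N.commutant := fun z k hk =>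
    Tomita.smul_mem_alg _ z hk
  set B : (H →L[ℂ] H) → (H →L[ℂ] H) → ℂ :=
    fun a b => φ (star a * b) - ⟪a Ω, x (b Ω)⟫_ℂ with hBdef
  have a1 : ∀ a ∈ N.commutant, ∀ a' ∈ N.commutant, ∀ b ∈ N.commutant,
      B (a + a') b = B a b + B a' b := fun a ha a' ha' b hb => by
    simp only [hBdef, star_add, add_mul, add_apply, inner_add_left]
    rw [hadd _ (mul_mem (star_mem ha) hb) _ (mul_mem (star_mem ha') hb)]
    ring
  have s1 : ∀ (z : ℂ), ∀ a ∈ N.commutant, ∀ b ∈ N.commutant,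
      B (z • a) b = conj z * B a b := fun z a ha b hb => by
    simp only [hBdef, star_smul, smul_mul_assoc, smul_apply, inner_smul_left]
    rw [Complex.star_def, hsmul _ _ (mul_mem (star_mem ha) hb)]
    ring
  have a2 : ∀ a ∈ N.commutant, ∀ b ∈ N.commutant, ∀ b' ∈ N.commutant,
      B a (b + b') = B a b + B a b' := fun a ha b hb b' hb' => by
    simp only [hBdef, mul_add, add_apply, map_add, inner_add_right]
    rw [hadd _ (mul_mem (star_mem ha) hb) _ (mul_mem (star_mem ha) hb')]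
    ring
  have s2 : ∀ (z : ℂ), ∀ a ∈ N.commutant, ∀ b ∈ N.commutant,
      B a (z • b) = z * B a b := fun z a ha b hb => by
    simp only [hBdef, mul_smul_comm, smul_apply, map_smul, inner_smul_right]
    rw [hsmul _ _ (mul_mem (star_mem ha) hb)]
    ring
  have hq : ∀ a ∈ N.commutant, ‖B a a‖ ≤ η * ‖a Ω‖ ^ 2 := h
  have hpol : ∀ a ∈ N.commutant, ∀ b ∈ N.commutant,
      ‖B a b‖ ≤ η * (‖a Ω‖ ^ 2 + ‖b Ω‖ ^ 2) := by
    intro a ha b hb
    have hexp : ∀ z : ℂ, B (b + z • a) (b + z • a) =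
        B b b + z * B b a + (conj z * B a b + conj z * z * B a a) := fun z => by
      rw [a1 b hb _ (hsm z a ha) _ (add_mem hb (hsm z a ha)),
        a2 b hb b hb _ (hsm z a ha), s1 z a ha _ (add_mem hb (hsm z a ha)),
        a2 a ha b hb _ (hsm z a ha), s2 z b hb a ha, s2 z a ha a ha]
      ring
    have h4 : 4 * B a b = B (b + (1 : ℂ) • a) (b + (1 : ℂ) • a) -
        B (b + (-1 : ℂ) • a) (b + (-1 : ℂ) • a) +
        Complex.I * (B (b + Complex.I • a) (b + Complex.I • a) -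
          B (b + (-Complex.I) • a) (b + (-Complex.I) • a)) := by
      simp only [hexp, map_one, map_neg, Complex.conj_I]
      ring_nf
      rw [Complex.I_sq]
      ring
    have hb' : ∀ z : ℂ, ‖z‖ = 1 →
        ‖B (b + z • a) (b + z • a)‖ ≤ η * (2 * (‖a Ω‖ ^ 2 + ‖b Ω‖ ^ 2) - ‖b Ω + (-z) • a Ω‖ ^ 2) :=
      fun z hz => by
      refine (hq _ (add_mem hb (hsm z a ha))).trans (le_of_eq ?_)
      simp only [add_apply, smul_apply, neg_smul, ← sub_eq_add_neg]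
      have := parallelogram_law_with_norm ℂ (b Ω) (z • a Ω)
      rw [norm_smul, hz, one_mul] at this
      congr 1
      nlinarith [this]
    have hneg : ∀ z : ℂ, ‖z‖ = 1 → ‖B (b + z • a) (b + z • a)‖ +
        ‖B (b + (-z) • a) (b + (-z) • a)‖ ≤ 2 * η * (‖a Ω‖ ^ 2 + ‖b Ω‖ ^ 2) := fun z hz => by
      have h1 := hb' z hz
      have h2 := hq _ (add_mem hb (hsm (-z) a ha))
      simp only [add_apply, smul_apply] at h2 ⊢
      linarith
    have h5 := hneg 1 (by simp)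
    have h6 := hneg Complex.I (by simp)
    have h7 : ‖4 * B a b‖ ≤ 4 * (η * (‖a Ω‖ ^ 2 + ‖b Ω‖ ^ 2)) := by
      rw [h4]
      refine (norm_add_le _ _).trans ?_
      rw [norm_mul, Complex.norm_I, one_mul]
      refine (add_le_add (norm_sub_le _ _) (norm_sub_le _ _)).trans ?_
      linarith
    rw [norm_mul, Complex.norm_ofNat] at h7
    linarith
  have hb2 : ∀ a ∈ N.commutant, ∀ b ∈ N.commutant, ‖B a b‖ ≤ 2 * η * ‖a Ω‖ * ‖b Ω‖ := by
    intro a ha b hb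
    have hsep := (Tomita.isCS_commutant hcs).separating
    rcases eq_or_ne (a Ω) 0 with ha0 | ha0
    · simp [hsep a ha ha0, hBdef, show φ 0 = 0 by simpa using hsmul 0 1 (one_mem _)]
    rcases eq_or_ne (b Ω) 0 with hb0 | hb0
    · simp [hsep b hb hb0, hBdef, show φ 0 = 0 by simpa using hsmul 0 1 (one_mem _)]
    set p := ‖a Ω‖ with hp
    set q := ‖b Ω‖ with hq'
    have hp0 : 0 < p := norm_pos_iff.2 ha0
    have hq0 : 0 < q := norm_pos_iff.2 hb0
    have h1 := hpol _ (hsm ((p⁻¹ : ℝ) : ℂ) a ha) _ (hsm ((q⁻¹ : ℝ) : ℂ) b hb)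
    rw [s1 _ a ha _ (hsm _ b hb), s2 _ a ha b hb, Complex.conj_ofReal, smul_apply,
      smul_apply, norm_smul, norm_smul, norm_mul, norm_mul, Complex.norm_real,
      Complex.norm_real, Real.norm_of_nonneg (by positivity), Real.norm_of_nonneg (by positivity),
      ← hp, ← hq', inv_mul_cancel₀ hp0.ne', inv_mul_cancel₀ hq0.ne'] at h1
    field_simp at h1
    linarith
  obtain ⟨T, hT, hTe⟩ := exists_op (B := fun a b : Alg N.commutant => B a b) hcs
    (fun a a' b => a1 _ a.2 _ a'.2 _ b.2) (fun z a b => s1 z _ a.2 _ b.2)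
    (fun a b b' => a2 _ a.2 _ b.2 _ b'.2) (fun z a b => s2 z _ a.2 _ b.2)
    (by positivity : (0 : ℝ) ≤ 2 * η) (fun a b => hb2 _ a.2 _ b.2)
  have hval : ∀ k₁ ∈ N.commutant, ∀ k₂ ∈ N.commutant,
      ⟪k₁ Ω, (x + T) (k₂ Ω)⟫_ℂ = φ (star k₁ * k₂) := fun k₁ h₁ k₂ h₂ => by
    have := hTe ⟨k₁, h₁⟩ ⟨k₂, h₂⟩
    change ⟪k₁ Ω, T (k₂ Ω)⟫_ℂ = _ at this
    rw [add_apply, inner_add_right, this, hBdef]
    ring
  refine ⟨x + T, ?_, by rwa [add_sub_cancel_left], hval⟩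
  rw [← VonNeumannAlgebra.commutant_commutant N, VonNeumannAlgebra.mem_commutant_iff]
  intro g hg
  refine op_ext hcs fun k₁ h₁ k₂ h₂ => ?_
  have e1 : ⟪k₁ Ω, (g * (x + T)) (k₂ Ω)⟫_ℂ = ⟪(star g * k₁) Ω, (x + T) (k₂ Ω)⟫_ℂ := by
    simp [ContinuousLinearMap.star_eq_adjoint, ContinuousLinearMap.adjoint_inner_left]
  rw [e1, hval _ (mul_mem (star_mem hg) h₁) _ h₂, mul_apply_eq_comp, ← mul_apply_eq_comp g k₂,
    hval _ h₁ _ (mul_mem hg h₂), star_mul, star_star, mul_assoc]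

theorem exists_tendsto_of_bdd {ι : Type v} (U : Ultrafilter ι) {f : ι → ℂ} {C : ℝ}
    (h : ∀ᶠ i in (U : Filter ι), ‖f i‖ ≤ C) : ∃ z, Tendsto f U (𝓝 z) := by
  obtain ⟨z, -, hz⟩ := (isCompact_closedBall (0 : ℂ) C).ultrafilter_le_nhds' (U.map f)
    (Ultrafilter.mem_map.2 (h.mono fun i hi => by simpa using hi))
  exact ⟨z, hz⟩

/-- Forms near the ones of `M` along an ultrafilter give the linear map. -/
theorem nearLinear_of_forms (hcs : IsCS N Ω) {ι : Type v} (U : Ultrafilter ι)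
    (F : ι → (H →L[ℂ] H) → (H →L[ℂ] H) → ℂ)
    (hadd₁ : ∀ᶠ i in (U : Filter ι), ∀ x ∈ M, ∀ y ∈ M, ∀ k ∈ N.commutant,
      F i (x + y) k = F i x k + F i y k)
    (hsmul₁ : ∀ᶠ i in (U : Filter ι), ∀ (z : ℂ), ∀ x ∈ M, ∀ k ∈ N.commutant,
      F i (z • x) k = z * F i x k)
    (hadd₂ : ∀ᶠ i in (U : Filter ι), ∀ x ∈ M, ∀ k ∈ N.commutant, ∀ l ∈ N.commutant,
      F i x (k + l) = F i x k + F i x l)
    (hsmul₂ : ∀ᶠ i in (U : Filter ι), ∀ (z : ℂ), ∀ x ∈ M, ∀ k ∈ N.commutant,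
      F i x (z • k) = z * F i x k)
    {η : ℝ} (hη : 0 ≤ η)
    (h : ∀ x ∈ M, ∀ k ∈ N.commutant, ∀ e : ℝ, 0 < e → ∀ᶠ i in (U : Filter ι),
      ‖F i x (star k * k) - ⟪k Ω, x (k Ω)⟫_ℂ‖ ≤ η * ‖x‖ * ‖k Ω‖ ^ 2 + e) :
    NearLinear M N (2 * η) := by
  have hsq : ∀ x ∈ M, ∀ k ∈ N.commutant, ∃ z, Tendsto (fun i => F i x (star k * k)) U (𝓝 z) :=
    fun x hx k hk => exists_tendsto_of_bdd U
      (C := ‖⟪k Ω, x (k Ω)⟫_ℂ‖ + (η * ‖x‖ * ‖k Ω‖ ^ 2 + 1)) ((h x hx k hk 1 one_pos).mono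
        fun i hi => (norm_le_norm_add_norm_sub' _ _).trans (add_le_add le_rfl hi))
  have hlim : ∀ x ∈ M, ∀ k ∈ N.commutant, ∃ z, Tendsto (fun i => F i x k) U (𝓝 z) := by
    intro x hx k hk
    obtain ⟨p, hp⟩ := hsq x hx _ (add_mem hk (one_mem _))
    obtain ⟨m, hm⟩ := hsq x hx _ (sub_mem hk (one_mem _))
    have hI : Complex.I • (1 : H →L[ℂ] H) ∈ N.commutant := Tomita.smul_mem_alg _ _ (one_mem _)
    obtain ⟨q, hq⟩ := hsq x hx _ (add_mem hk hI)
    obtain ⟨r, hr⟩ := hsq x hx _ (sub_mem hk hI)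
    refine ⟨4⁻¹ * ((p - m) + Complex.I * (q - r)),
      (((hp.sub hm).add ((hq.sub hr).const_mul Complex.I)).const_mul (4⁻¹ : ℂ)).congr' ?_⟩
    filter_upwards [hadd₂, hsmul₂] with i h2 h3
    have hsub : ∀ a ∈ N.commutant, ∀ b ∈ N.commutant, F i x (a - b) = F i x a - F i x b :=
      fun a ha b hb => by
        rw [eq_sub_iff_add_eq, ← h2 x hx _ (sub_mem ha hb) b hb, sub_add_cancel]
    have m1 := fun a (ha : a ∈ N.commutant) => mul_mem (star_mem ha) ha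
    rw [← hsub _ (m1 _ (add_mem hk (one_mem _))) _ (m1 _ (sub_mem hk (one_mem _))),
      ← hsub _ (m1 _ (add_mem hk hI)) _ (m1 _ (sub_mem hk hI)),
      ← h3 Complex.I x hx _ (sub_mem (m1 _ (add_mem hk hI)) (m1 _ (sub_mem hk hI))),
      ← h2 x hx _ (sub_mem (m1 _ (add_mem hk (one_mem _))) (m1 _ (sub_mem hk (one_mem _))))
        _ (Tomita.smul_mem_alg _ _ (sub_mem (m1 _ (add_mem hk hI)) (m1 _ (sub_mem hk hI)))),
      show star (k + 1) * (k + 1) - star (k - 1) * (k - 1) +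
        Complex.I • (star (k + Complex.I • 1) * (k + Complex.I • 1) -
          star (k - Complex.I • 1) * (k - Complex.I • 1)) = (4 : ℂ) • k by
        simp only [star_add, star_sub, star_one, star_smul, Complex.star_def, Complex.conj_I,
          mul_add, add_mul, mul_sub, sub_mul, neg_smul, neg_mul, smul_mul_assoc,
          mul_smul_comm, one_mul, mul_one]
        match_scalars <;>
          first
          | ring1
          | linear_combination (2 : ℂ) * Complex.I_sq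
          | linear_combination (4 : ℂ) * Complex.I_sq
          | linear_combination (-2 : ℂ) * Complex.I_sq]
    rw [h3 4 x hx k hk, ← mul_assoc, inv_mul_cancel₀ (by norm_num), one_mul]
  choose! φ hφ using hlim
  have hT : ∀ x : Alg M, ∃ T ∈ N, ‖T - (x : H →L[ℂ] H)‖ ≤ 2 * (η * ‖x‖) ∧
      ∀ k₁ ∈ N.commutant, ∀ k₂ ∈ N.commutant, ⟪k₁ Ω, T (k₂ Ω)⟫_ℂ = φ x (star k₁ * k₂) := by
    intro x
    refine exists_mem_of_form hcs (fun k hk l hl => ?_) (fun z k hk => ?_)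
      (mul_nonneg hη (norm_nonneg _)) fun k hk => ?_
    · exact tendsto_nhds_unique (hφ _ x.2 _ (add_mem hk hl))
        (((hφ _ x.2 k hk).add (hφ _ x.2 l hl)).congr'
          (hadd₂.mono fun i hi => (hi _ x.2 k hk l hl).symm))
    · exact tendsto_nhds_unique (hφ _ x.2 _ (Tomita.smul_mem_alg _ z hk))
        (((hφ _ x.2 k hk).const_mul z).congr' (hsmul₂.mono fun i hi => (hi z _ x.2 k hk).symm))
    · refine le_of_forall_pos_le_add fun e he => le_of_tendsto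
        (((hφ _ x.2 _ (mul_mem (star_mem hk) hk)).sub_const _).norm) ?_
      exact h x x.2 k hk e he
  choose T hTN hTx hTv using hT
  refine ⟨
    { toFun := fun x => ⟨T x, hTN x⟩
      map_add' := fun x y => Subtype.ext (op_ext hcs fun k₁ h₁ k₂ h₂ => ?_)
      map_smul' := fun z x => Subtype.ext (op_ext hcs fun k₁ h₁ k₂ h₂ => ?_) },
    fun x => (hTx x).trans_eq (by ring)⟩
  · show ⟪k₁ Ω, T (x + y) (k₂ Ω)⟫_ℂ = ⟪k₁ Ω, (T x + T y) (k₂ Ω)⟫_ℂ
    rw [add_apply, inner_add_right, hTv _ k₁ h₁ k₂ h₂, hTv _ k₁ h₁ k₂ h₂, hTv _ k₁ h₁ k₂ h₂]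
    have hk := mul_mem (star_mem h₁) h₂
    exact tendsto_nhds_unique (hφ _ (x + y).2 _ hk) (((hφ _ x.2 _ hk).add (hφ _ y.2 _ hk)).congr'
      (hadd₁.mono fun i hi => (hi _ x.2 _ y.2 _ hk).symm))
  · show ⟪k₁ Ω, T (z • x) (k₂ Ω)⟫_ℂ = ⟪k₁ Ω, (z • T x) (k₂ Ω)⟫_ℂ
    rw [smul_apply, inner_smul_right, hTv _ k₁ h₁ k₂ h₂, hTv _ k₁ h₁ k₂ h₂]
    have hk := mul_mem (star_mem h₁) h₂
    exact tendsto_nhds_unique (hφ _ (z • x).2 _ hk) (((hφ _ x.2 _ hk).const_mul z).congr'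
      (hsmul₁.mono fun i hi => (hi z _ x.2 _ hk).symm))

end Vale.Agent.P096.III.Pinned
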