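import Vale.Agent.P096.III.Iface
import Vale.Agent.P096.III.Pinned.Forms
import Vale.Agent.P132.Modular.Main

/-!
# The linear map of a pinned pair, from the stage and the encoding

For a self-adjoint contraction `x` the encoding gives `ι x = u + u*` with `u` almost centralising
with defect `δ`, and the stage is applied with `n ~ (ε/δ)^2` blocks and the sliced tests `d s`.
-/

namespace Vale.Agent.P096.III.Pinned

open scoped InnerProductSpace Topology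
open Filter
open Vale.Agent.P082 (Alg)
open Vale.Agent.P132 (IsCS ModData)

universe u v

/-- The number of blocks for the defect `δ`. -/
theorem exists_blocks {ε δ : ℝ} (hδ : 0 < δ) (hδε : δ ≤ ε) : ∃ n : ℕ, 0 < n ∧
    Real.sqrt n * δ ≤ ε ∧ ∀ c : ℝ, 0 ≤ c → ε * Real.sqrt (c / n) ≤ 2 * δ * Real.sqrt c := by
  set q := (ε / δ) ^ 2 with hq
  have hε : 0 ≤ ε := hδ.le.trans hδε
  have hr : 1 ≤ ε / δ := (one_le_div hδ).2 hδε
  have hq1 : 1 ≤ q := one_le_pow₀ hr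
  have hn : 0 < ⌊q⌋₊ := Nat.floor_pos.2 hq1
  refine ⟨⌊q⌋₊, hn, ?_, fun c hc => ?_⟩
  · have h : Real.sqrt ⌊q⌋₊ ≤ ε / δ := (Real.sqrt_le_iff).2
      ⟨le_trans zero_le_one hr, (Nat.floor_le (le_trans zero_le_one hq1)).trans_eq hq⟩
    rwa [← le_div_iff₀ hδ]
  · have hn' : (0 : ℝ) < ⌊q⌋₊ := by exact_mod_cast hn
    have h1 : q ≤ 4 * (⌊q⌋₊ : ℝ) := by
      have h2 := Nat.lt_floor_add_one q
      have : (1 : ℝ) ≤ ⌊q⌋₊ := by exact_mod_cast hn
      linarith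
    have h3 : ε ≤ 2 * δ * Real.sqrt ⌊q⌋₊ := by
      have h4 := Real.sqrt_le_sqrt h1
      rw [hq, Real.sqrt_sq (le_trans zero_le_one hr), Real.sqrt_mul (by norm_num) _,
        show (4 : ℝ) = 2 ^ 2 by norm_num, Real.sqrt_sq (by norm_num), div_le_iff₀ hδ] at h4
      linarith
    rw [Real.sqrt_div hc, mul_div_assoc', div_le_iff₀ (Real.sqrt_pos.2 hn')]
    calc ε * Real.sqrt c ≤ 2 * δ * Real.sqrt ⌊q⌋₊ * Real.sqrt c :=
          mul_le_mul_of_nonneg_right h3 (Real.sqrt_nonneg c)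
      _ = _ := by ring

/-- The error of one unitary at one test. -/
theorem err_le {C ε A p a S δ m : ℝ} (hC : 0 ≤ C) (hε : 0 ≤ ε) (hε1 : ε ≤ 1) (hp : 0 ≤ p)
    (hm : 1 ≤ m) (hA : 0 ≤ A) (ha : 0 ≤ a) (hap : a ≤ p + 1 / m)
    (hd : δ * S * (1 + A) ≤ 2 / m ^ 2 * (1 + A)) :
    C * (2 * ε) * (a + 1 / m) ^ 2 + C * (δ * S * (1 + A) * ((1 + a) ^ 2 * m)) + 1 / m ≤
      2 * C * ε * p ^ 2 + (C * (8 * p + 8) + 2 * C * (1 + A) * (p + 2) ^ 2 + 1) / m := by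
  have hi : 0 < 1 / m := by positivity
  have hi1 : 1 / m ≤ 1 := by rw [div_le_one (by positivity)]; exact hm
  have h1 : (a + 1 / m) ^ 2 ≤ p ^ 2 + (4 * p + 4) * (1 / m) := by
    have : (a + 1 / m) ^ 2 ≤ (p + 2 * (1 / m)) ^ 2 :=
      pow_le_pow_left₀ (by positivity) (by linarith) 2
    nlinarith
  have h2 : (1 + a) ^ 2 ≤ (p + 2) ^ 2 := pow_le_pow_left₀ (by positivity) (by linarith) 2
  have h3 : δ * S * (1 + A) * ((1 + a) ^ 2 * m) ≤ 2 / m * ((1 + A) * (p + 2) ^ 2) := by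
    refine (mul_le_mul hd (mul_le_mul_of_nonneg_right h2 (by positivity)) (by positivity)
      (by positivity)).trans_eq ?_
    field_simp
  calc C * (2 * ε) * (a + 1 / m) ^ 2 + C * (δ * S * (1 + A) * ((1 + a) ^ 2 * m)) + 1 / m
      ≤ C * (2 * ε) * (p ^ 2 + (4 * p + 4) * (1 / m)) +
        C * (2 / m * ((1 + A) * (p + 2) ^ 2)) + 1 / m := by gcongr
    _ ≤ 2 * C * ε * p ^ 2 + C * 2 * 1 * ((4 * p + 4) * (1 / m)) +
        C * (2 / m * ((1 + A) * (p + 2) ^ 2)) + 1 / m := by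
          have : C * 2 * ε * ((4 * p + 4) * (1 / m)) ≤ C * 2 * 1 * ((4 * p + 4) * (1 / m)) := by
            gcongr
          linarith
    _ = _ := by ring

variable {H : Type u} [NormedAddCommGroup H] [InnerProductSpace ℂ H] [CompleteSpace H]
  {M N : VonNeumannAlgebra H} {Ω : H}

omit [CompleteSpace H] in
/-- The error of the stage at a sliced test. -/
theorem stage_err {C ε p a c cb δ m b θe : ℝ} {T U : H →L[ℂ] H} {n : ℕ} (hC : 0 ≤ C)
    (hε : 0 ≤ ε) (hε1 : ε ≤ 1) (hp : 0 ≤ p) (hm : 1 ≤ m) (hcb : 1 ≤ cb) (hδ : 0 ≤ δ)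
    (hnd : Real.sqrt n * δ ≤ ε)
    (hnc : ∀ c : ℝ, 0 ≤ c → ε * Real.sqrt (c / n) ≤ 2 * δ * Real.sqrt c) (hap : a ≤ p + 1 / m)
    (hU : δ * ‖U‖ ≤ δ * (‖T‖ * b)) (hS : δ * b ≤ θe) (hδθ : δ ≤ 1 / (m ^ 2 * cb))
    (hθe : θe ≤ 1 / (m ^ 2 * cb)) (hc0 : 0 ≤ c) (hc : c ≤ cb) (ha : 0 ≤ a) :
    C * (ε + Real.sqrt n * δ) * (a + 1 / m) ^ 2 +
        C * ε * Real.sqrt (c / n) * ((1 + ‖U‖) * (1 + a) ^ 2 / (1 / m)) + 1 / m ≤
      2 * C * ε * p ^ 2 + (C * (8 * p + 8) + 2 * C * (1 + ‖T‖) * (p + 2) ^ 2 + 1) / m := by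
  have hsc : Real.sqrt c ≤ cb :=
    (Real.sqrt_le_sqrt hc).trans (Real.sqrt_le_iff.2 ⟨by positivity, le_self_pow₀ hcb two_ne_zero⟩)
  have hd : δ * (1 + ‖U‖) ≤ 1 / (m ^ 2 * cb) * (1 + ‖T‖) := by
    have := mul_le_mul_of_nonneg_left (hS.trans hθe) (norm_nonneg T)
    linarith
  have hd2 : δ * (1 + ‖U‖) * Real.sqrt c ≤ 1 / m ^ 2 * (1 + ‖T‖) := by
    refine (mul_le_mul hd hsc (Real.sqrt_nonneg _) (by positivity)).trans_eq ?_
    field_simp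
  have he := err_le (C := C) (A := ‖T‖) (a := a) (δ := 2 * (δ * (1 + ‖U‖)) / (1 + ‖T‖))
    (S := Real.sqrt c) hC hε hε1 hp hm (norm_nonneg T) ha hap (by
      have e : 2 * (δ * (1 + ‖U‖)) / (1 + ‖T‖) * Real.sqrt c * (1 + ‖T‖) =
          2 * (δ * (1 + ‖U‖) * Real.sqrt c) := by field_simp
      rw [e]
      exact (mul_le_mul_of_nonneg_left hd2 two_pos.le).trans_eq (by ring))
  refine le_trans ?_ he
  gcongr ?_ * _ + ?_ + _
  · exact mul_le_mul_of_nonneg_left (by linarith) hC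
  · calc C * ε * Real.sqrt (c / n) * ((1 + ‖U‖) * (1 + a) ^ 2 / (1 / m))
        = C * ((1 + ‖U‖) * (1 + a) ^ 2 * m) * (ε * Real.sqrt (c / n)) := by
          rw [div_div_eq_mul_div, div_one]; ring
      _ ≤ C * ((1 + ‖U‖) * (1 + a) ^ 2 * m) * (2 * δ * Real.sqrt c) :=
          mul_le_mul_of_nonneg_left (hnc c hc0) (by positivity)
      _ = _ := by field_simp

/-- `k ↦ s* k s`. -/
noncomputable def slice (s : Alg N.commutant) : Alg N.commutant →ₗ[ℂ] Alg N.commutant :=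
  (LinearMap.mulLeft ℂ (star s)).comp (LinearMap.mulRight ℂ s)

theorem slice_sq (s k : Alg N.commutant) : slice s (star k * k) = star (k * s) * (k * s) := by
  show star s * (star k * k * s) = _
  rw [star_mul, mul_assoc, mul_assoc]

/-- The two unitaries of an encoded element. -/
theorem form_sum (Φ : Alg M →ₗ[ℂ] Alg N.commutant →ₗ[ℂ] ℂ) (ι : Alg M →ₗ[ℂ] Alg M)
    (s k : Alg N.commutant) {x : Alg M} {u : H →L[ℂ] H} (hu : u ∈ M)
    (hx : (ι x : H →L[ℂ] H) = u + star u) {B e : ℝ}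
    (h1 : ‖Φ ⟨u, hu⟩ (star (k * s) * (k * s)) -
      ⟪((k * s : Alg N.commutant) : H →L[ℂ] H) Ω,
        u (((k * s : Alg N.commutant) : H →L[ℂ] H) Ω)⟫_ℂ‖ ≤ B)
    (h2 : ‖Φ ⟨star u, star_mem hu⟩ (star (k * s) * (k * s)) -
      ⟪((k * s : Alg N.commutant) : H →L[ℂ] H) Ω,
        star u (((k * s : Alg N.commutant) : H →L[ℂ] H) Ω)⟫_ℂ‖ ≤ B)
    (h3 : ‖⟪(k : H →L[ℂ] H) ((s : H →L[ℂ] H) Ω),
        (ι x : H →L[ℂ] H) ((k : H →L[ℂ] H) ((s : H →L[ℂ] H) Ω))⟫_ℂ -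
      ⟪(k : H →L[ℂ] H) Ω, (x : H →L[ℂ] H) ((k : H →L[ℂ] H) Ω)⟫_ℂ‖ ≤ e) :
    ‖(Φ.comp ι).compl₂ (slice s) x (star k * k) -
      ⟪(k : H →L[ℂ] H) Ω, (x : H →L[ℂ] H) ((k : H →L[ℂ] H) Ω)⟫_ℂ‖ ≤ B + B + e := by
  have hι : ι x = ⟨u, hu⟩ + ⟨star u, star_mem hu⟩ := Subtype.ext hx
  rw [hx, add_apply, inner_add_right] at h3
  rw [LinearMap.compl₂_apply, LinearMap.comp_apply, slice_sq, hι, map_add, LinearMap.add_apply]
  refine le_trans (le_of_eq ?_) (norm_add₃_le.trans (add_le_add (add_le_add h1 h2) h3))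
  congr 1
  simp only [MulMemClass.coe_mul, mul_apply_eq_comp]
  ring

/-- A form on `M` and the commutant of `N` from the encoding and the stage, for given finite
tests. -/
theorem exists_form {C ε : ℝ} (hC : 0 ≤ C) (hε : 0 < ε) (hε1 : ε ≤ 1) {DM : ModData M Ω}
    (hS : ∀ S : Finset (H →L[ℂ] H), S.Nonempty → (∀ u ∈ S, u ∈ M ∧ u ∈ unitary (H →L[ℂ] H)) →
      ∀ δ : ℝ, 0 ≤ δ →
        (∀ u ∈ S, ∀ z, InCentre M z → ‖z (u Ω - DM.J (star u Ω))‖ ≤ δ * ‖z Ω‖) →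
      ∀ P : Finset (H →L[ℂ] H), (∀ d ∈ P, d ∈ N.commutant) →
      ∀ n : ℕ, 0 < n → ∀ θ : ℝ, 0 < θ → θ ≤ 1 →
        ∃ Φ : Alg M →ₗ[ℂ] Alg N.commutant →ₗ[ℂ] ℂ,
          ∀ x : Alg M, (x : H →L[ℂ] H) ∈ S → ∀ d : Alg N.commutant, (d : H →L[ℂ] H) ∈ P →
            ‖Φ x (star d * d) -
                ⟪(d : H →L[ℂ] H) Ω, (x : H →L[ℂ] H) ((d : H →L[ℂ] H) Ω)⟫_ℂ‖ ≤
              C * (ε + Real.sqrt n * δ) * (‖(d : H →L[ℂ] H) Ω‖ + θ) ^ 2 +
                C * ε * Real.sqrt ((S.card : ℝ) / n) *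
                  ((1 + ‖(d : H →L[ℂ] H)‖) * (1 + ‖(d : H →L[ℂ] H) Ω‖) ^ 2 / θ) + θ)
    (hE : ∀ X : Finset (Alg M), (∀ x ∈ X, IsSelfAdjoint x ∧ ‖x‖ ≤ 1) →
      ∀ P : Finset (H →L[ℂ] H), (∀ d ∈ P, d ∈ N.commutant) →
      ∀ θ : ℝ, 0 < θ →
      ∃ (ι : Alg M →ₗ[ℂ] Alg M) (s : H →L[ℂ] H) (δ : ℝ),
        s ∈ N.commutant ∧ 0 < δ ∧ δ ≤ θ ∧ δ * ‖s‖ ≤ θ ∧
        (∀ x ∈ X, ∃ u ∈ M, u ∈ unitary (H →L[ℂ] H) ∧ (ι x : H →L[ℂ] H) = u + star u ∧
          ∀ z, InCentre M z → ‖z (u Ω - DM.J (star u Ω))‖ ≤ δ * ‖z Ω‖ ∧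
            ‖z (star u Ω - DM.J (u Ω))‖ ≤ δ * ‖z Ω‖) ∧
        (∀ d ∈ P, |‖d (s Ω)‖ - ‖d Ω‖| ≤ θ) ∧
        ∀ x ∈ X, ∀ d ∈ P,
          ‖⟪d (s Ω), (ι x : H →L[ℂ] H) (d (s Ω))⟫_ℂ -
              ⟪d Ω, (x : H →L[ℂ] H) (d Ω)⟫_ℂ‖ ≤ θ)
    (X : Finset (Alg M)) (P : Finset (Alg N.commutant)) (m : ℕ) :
    ∃ F : Alg M →ₗ[ℂ] Alg N.commutant →ₗ[ℂ] ℂ,
      ∀ x ∈ X, IsSelfAdjoint x → ‖x‖ ≤ 1 → ∀ k ∈ P,
        ‖F x (star k * k) - ⟪(k : H →L[ℂ] H) Ω, (x : H →L[ℂ] H) ((k : H →L[ℂ] H) Ω)⟫_ℂ‖ ≤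
          4 * C * ε * ‖(k : H →L[ℂ] H) Ω‖ ^ 2 +
            (2 * (C * (8 * ‖(k : H →L[ℂ] H) Ω‖ + 8) +
              2 * C * (1 + ‖(k : H →L[ℂ] H)‖) * (‖(k : H →L[ℂ] H) Ω‖ + 2) ^ 2 + 1) + 1) /
              ((m : ℝ) + 1) := by
  classical
  set X₀ := X.filter fun x => IsSelfAdjoint x ∧ ‖x‖ ≤ 1
  set P₀ : Finset (H →L[ℂ] H) := P.image fun k : Alg N.commutant => (k : H →L[ℂ] H)
  set mr : ℝ := (m : ℝ) + 1 with hmr
  have hm1 : 1 ≤ mr := le_add_of_nonneg_left (Nat.cast_nonneg m)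
  set cb : ℝ := 2 * (X₀.card : ℝ) + 1 with hcb
  have hcb1 : 1 ≤ cb := le_add_of_nonneg_left (by positivity)
  set θe : ℝ := min ε (1 / (mr ^ 2 * cb)) with hθe
  have hθe0 : 0 < θe := lt_min hε (by positivity)
  have hθe1 : θe ≤ 1 / mr := by
    refine (min_le_right _ _).trans (one_div_le_one_div_of_le (by positivity) ?_)
    calc mr = mr * 1 * 1 := by ring
      _ ≤ mr * mr * cb := by gcongr
      _ = _ := by ring
  obtain ⟨ι, s, δ, hs, hδ, hδθ, hδs, hu, hnorm, hval⟩ := hE X₀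
    (fun x hx => (Finset.mem_filter.1 hx).2) P₀
    (fun d hd => by obtain ⟨k, -, rfl⟩ := Finset.mem_image.1 hd; exact k.2) θe hθe0
  choose! uf huM huU hue hucen using hu
  set S : Finset (H →L[ℂ] H) := insert 1 ((X₀.image uf) ∪ (X₀.image fun x => star (uf x)))
  have hScard : (S.card : ℝ) ≤ cb := by
    have h1 : S.card ≤ 2 * X₀.card + 1 := by
      refine (Finset.card_insert_le _ _).trans (Nat.add_le_add_right ?_ 1)
      refine (Finset.card_union_le _ _).trans ?_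
      rw [two_mul]
      exact add_le_add Finset.card_image_le Finset.card_image_le
    calc (S.card : ℝ) ≤ ((2 * X₀.card + 1 : ℕ) : ℝ) := by exact_mod_cast h1
      _ = cb := by rw [hcb]; push_cast; ring
  have hSu : ∀ u ∈ S, u ∈ M ∧ u ∈ unitary (H →L[ℂ] H) ∧
      ∀ z, InCentre M z → ‖z (u Ω - DM.J (star u Ω))‖ ≤ δ * ‖z Ω‖ := by
    intro u hu'
    rcases Finset.mem_insert.1 hu' with rfl | h
    · refine ⟨one_mem M, one_mem _, fun z _ => ?_⟩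
      simp only [star_one, one_apply_eq_self, DM.J_omega, sub_self, map_zero, norm_zero]
      positivity
    rcases Finset.mem_union.1 h with h | h <;> obtain ⟨x, hx, rfl⟩ := Finset.mem_image.1 h
    · exact ⟨huM x hx, huU x hx, fun z hz => (hucen x hx z hz).1⟩
    · exact ⟨star_mem (huM x hx), Unitary.star_mem (huU x hx),
        fun z hz => by rw [star_star]; exact (hucen x hx z hz).2⟩
  obtain ⟨n, hn, hnd, hnc⟩ := exists_blocks hδ (hδθ.trans (min_le_left _ _))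
  obtain ⟨Φ, hΦ⟩ := hS S ⟨1, Finset.mem_insert_self _ _⟩ (fun u h => ⟨(hSu u h).1, (hSu u h).2.1⟩) δ
    hδ.le (fun u h => (hSu u h).2.2) (P₀.image (· * s))
    (fun d hd => by
      obtain ⟨e, he, rfl⟩ := Finset.mem_image.1 hd
      obtain ⟨k, -, rfl⟩ := Finset.mem_image.1 he
      exact mul_mem k.2 hs)
    n hn (1 / mr) (by positivity) (by rw [div_le_one (by positivity)]; exact hm1)
  refine ⟨(Φ.comp ι).compl₂ (slice ⟨s, hs⟩), fun x hx hsa hn1 k hk => ?_⟩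
  have hx0 : x ∈ X₀ := Finset.mem_filter.2 ⟨hx, hsa, hn1⟩
  have hkP : (k : H →L[ℂ] H) ∈ P₀ := Finset.mem_image.2 ⟨k, hk, rfl⟩
  set ks : Alg N.commutant := k * ⟨s, hs⟩ with hks
  have hcoe : (ks : H →L[ℂ] H) = (k : H →L[ℂ] H) * s := rfl
  have hmem : (ks : H →L[ℂ] H) ∈ P₀.image (fun y => y * s) :=
    Finset.mem_image.2 ⟨(k : H →L[ℂ] H), hkP, hcoe.symm⟩
  have hap : ‖(ks : H →L[ℂ] H) Ω‖ ≤ ‖(k : H →L[ℂ] H) Ω‖ + 1 / mr := by
    rw [hcoe, mul_apply_eq_comp]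
    linarith [(abs_le.1 (hnorm _ hkP)).2]
  have hU : δ * ‖(ks : H →L[ℂ] H)‖ ≤ δ * (‖(k : H →L[ℂ] H)‖ * ‖s‖) := by
    rw [hcoe]
    exact mul_le_mul_of_nonneg_left (norm_mul_le _ s) hδ.le
  have herr := stage_err (C := C) (ε := ε) (p := ‖(k : H →L[ℂ] H) Ω‖)
    (a := ‖(ks : H →L[ℂ] H) Ω‖) (c := (S.card : ℝ)) (cb := cb) (δ := δ) (m := mr) (b := ‖s‖)
    (θe := θe) (T := (k : H →L[ℂ] H)) (U := (ks : H →L[ℂ] H)) (n := n) hC hε.le hε1 (norm_nonneg _)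
    hm1 hcb1 hδ.le hnd hnc hap hU hδs (hδθ.trans (min_le_right _ _)) (min_le_right _ _)
    (Nat.cast_nonneg _) hScard (norm_nonneg _)
  have hu1 : ((⟨uf x, huM x hx0⟩ : Alg M) : H →L[ℂ] H) ∈ S :=
    Finset.mem_insert_of_mem (Finset.mem_union_left _ (Finset.mem_image_of_mem _ hx0))
  have hu2 : ((⟨star (uf x), star_mem (huM x hx0)⟩ : Alg M) : H →L[ℂ] H) ∈ S :=
    Finset.mem_insert_of_mem (Finset.mem_union_right _ (Finset.mem_image.2 ⟨x, hx0, rfl⟩))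
  have h1 := (hΦ _ hu1 ks hmem).trans herr
  have h2 := (hΦ _ hu2 ks hmem).trans herr
  refine (form_sum Φ ι ⟨s, hs⟩ k (huM x hx0) (hue x hx0) h1 h2
    ((hval x hx0 _ hkP).trans hθe1)).trans_eq ?_
  ring

/-- `Iface.StmtPinned` from the stage and the encoding. -/
theorem stmtPinned_of (hStage : Iface.StmtStage.{v}) (hEnc : Iface.StmtEncode.{v}) :
    Iface.StmtPinned.{v} := by
  classical
  obtain ⟨C, ε₀, hC, hε₀, hSt⟩ := hStage
  refine ⟨16 * C, min ε₀ 1, by positivity, lt_min hε₀ one_pos, ?_⟩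
  intro H _ _ _ M N Ω F ε hP hε hεle hnear hnear'
  obtain ⟨DM⟩ := P132.Modular.stmtModular H M Ω hP.grps.cs
  have hεε₀ : ε ≤ ε₀ := hεle.trans (min_le_left _ _)
  have hε1 : ε ≤ 1 := hεle.trans (min_le_right _ _)
  choose Φ hΦ using fun i : Finset (Alg M) × Finset (Alg N.commutant) × ℕ =>
    exists_form (DM := DM) hC hε hε1
      (hSt H M N Ω F ε hP hε hεε₀ hnear hnear' DM) (hEnc H M N Ω F hP DM) i.1 i.2.1 i.2.2
  let U : Ultrafilter (Finset (Alg M) × Finset (Alg N.commutant) × ℕ) := Ultrafilter.of atTop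
  set G : Finset (Alg M) × Finset (Alg N.commutant) × ℕ → (H →L[ℂ] H) → (H →L[ℂ] H) → ℂ :=
    fun i x k => if h : x ∈ M ∧ k ∈ N.commutant then Φ i ⟨x, h.1⟩ ⟨k, h.2⟩ else 0 with hG
  have hGe : ∀ i x (hx : x ∈ M) k (hk : k ∈ N.commutant), G i x k = Φ i ⟨x, hx⟩ ⟨k, hk⟩ :=
    fun i x hx k hk => by rw [hG]; exact dif_pos ⟨hx, hk⟩
  have h16 : 16 * C * ε = 2 * (8 * C * ε) := by ring
  rw [h16]
  refine nearLinear_of_forms F.grps.cs U G
    (Eventually.of_forall fun i x hx y hy k hk => by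
      rw [hGe i _ (add_mem hx hy) _ hk, hGe i _ hx _ hk, hGe i _ hy _ hk,
        ← LinearMap.add_apply, ← map_add]
      rfl)
    (Eventually.of_forall fun i z x hx k hk => by
      rw [hGe i _ (M.toStarSubalgebra.smul_mem hx z) _ hk, hGe i _ hx _ hk, ← smul_eq_mul,
        ← LinearMap.smul_apply, ← map_smul]
      rfl)
    (Eventually.of_forall fun i x hx k hk l hl => by
      rw [hGe i _ hx _ (add_mem hk hl), hGe i _ hx _ hk, hGe i _ hx _ hl, ← map_add]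
      rfl)
    (Eventually.of_forall fun i z x hx k hk => by
      rw [hGe i _ hx _ (N.commutant.toStarSubalgebra.smul_mem hk z), hGe i _ hx _ hk,
        ← smul_eq_mul, ← map_smul]
      rfl)
    (by positivity) fun x hx k hk e he => ?_
  set t := ‖x‖ with ht
  set p := ‖k Ω‖
  rcases eq_or_ne x 0 with hx0 | hx0
  · refine Eventually.of_forall fun i => ?_
    have h0 : G i x (star k * k) = 0 := by
      rw [hGe i _ hx _ (mul_mem (star_mem hk) hk),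
        show (⟨x, hx⟩ : Alg M) = 0 from Subtype.ext hx0, map_zero, LinearMap.zero_apply]
    rw [h0, hx0]
    simp only [zero_apply, inner_zero_right, sub_zero, norm_zero]
    positivity
  have ht0 : 0 < t := norm_pos_iff.2 hx0
  let X : Alg M := ⟨x, hx⟩
  let k' : Alg N.commutant := ⟨k, hk⟩
  let a : Alg M := (((2 * t)⁻¹ : ℝ) : ℂ) • (X + star X)
  let b : Alg M := (-Complex.I * (((2 * t)⁻¹ : ℝ) : ℂ)) • (X - star X)
  have ha : IsSelfAdjoint a := by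
    rw [isSelfAdjoint_iff, star_smul, Complex.star_def, Complex.conj_ofReal, star_add, star_star,
      add_comm]
  have hb : IsSelfAdjoint b := by
    rw [isSelfAdjoint_iff, star_smul, star_sub, star_star, Complex.star_def, map_mul, map_neg,
      Complex.conj_I, Complex.conj_ofReal, neg_neg,
      show star X - X = -(X - star X) by abel, smul_neg, ← neg_smul, ← neg_mul]
  have hX : ‖X‖ = t := rfl
  have han : ‖a‖ ≤ 1 := by
    rw [norm_smul, Complex.norm_real, Real.norm_of_nonneg (by positivity), ← div_eq_inv_mul,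
      div_le_one (by positivity)]
    exact (norm_add_le _ _).trans_eq (by rw [norm_star, hX]; ring)
  have hbn : ‖b‖ ≤ 1 := by
    rw [norm_smul, norm_mul, norm_neg, Complex.norm_I, one_mul, Complex.norm_real,
      Real.norm_of_nonneg (by positivity), ← div_eq_inv_mul, div_le_one (by positivity)]
    exact (norm_sub_le _ _).trans_eq (by rw [norm_star, hX]; ring)
  have hdec : X = (t : ℂ) • a + (Complex.I * t) • b := by
    simp only [a, b, smul_smul]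
    have htc : (t : ℂ) ≠ 0 := Complex.ofReal_ne_zero.2 ht0.ne'
    have e1 : Complex.I * (t : ℂ) * (-Complex.I * (((2 * t)⁻¹ : ℝ) : ℂ)) = 1 / 2 := by
      push_cast
      field_simp
      linear_combination -Complex.I_sq
    have e2 : (t : ℂ) * (((2 * t)⁻¹ : ℝ) : ℂ) = 1 / 2 := by
      push_cast; field_simp
    rw [e1, e2]
    module
  set K := 2 * (C * (8 * p + 8) + 2 * C * (1 + ‖k‖) * (p + 2) ^ 2 + 1) + 1 with hK
  obtain ⟨m₀, hm₀⟩ := exists_nat_gt (2 * t * K / e)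
  refine Ultrafilter.of_le atTop ((eventually_ge_atTop
    (({a, b} : Finset (Alg M)), ({k'} : Finset (Alg N.commutant)), m₀)).mono fun i hi => ?_)
  obtain ⟨hi1, hi2, hi3⟩ := hi
  have hk' : k' ∈ i.2.1 := hi2 (Finset.mem_singleton_self _)
  have hA := hΦ i a (hi1 (by simp)) ha han k' hk'
  have hB := hΦ i b (hi1 (by simp)) hb hbn k' hk'
  have e1 : G i x (star k * k) - ⟪k Ω, x (k Ω)⟫_ℂ =
      (t : ℂ) * (Φ i a (star k' * k') - ⟪k Ω, (a : H →L[ℂ] H) (k Ω)⟫_ℂ) +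
      (Complex.I * t) * (Φ i b (star k' * k') - ⟪k Ω, (b : H →L[ℂ] H) (k Ω)⟫_ℂ) := by
    rw [hGe i x hx _ (mul_mem (star_mem hk) hk)]
    have e2 : x = (t : ℂ) • (a : H →L[ℂ] H) + (Complex.I * t) • (b : H →L[ℂ] H) :=
      congrArg Subtype.val hdec
    conv_lhs => arg 2; rw [e2, add_apply, inner_add_right, smul_apply, smul_apply,
      inner_smul_right, inner_smul_right]
    rw [show (⟨x, hx⟩ : Alg M) = (t : ℂ) • a + (Complex.I * t) • b from hdec,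
      show (⟨star k * k, mul_mem (star_mem hk) hk⟩ : Alg N.commutant) = star k' * k' from rfl]
    simp only [map_add, map_smul, LinearMap.add_apply, LinearMap.smul_apply, smul_eq_mul]
    ring
  rw [e1]
  refine (norm_add_le _ _).trans ?_
  rw [norm_mul, norm_mul, norm_mul, Complex.norm_I, one_mul, Complex.norm_real,
    Real.norm_of_nonneg ht0.le]
  have hsmall : K / ((i.2.2 : ℝ) + 1) * (2 * t) ≤ e := by
    have h1 : (m₀ : ℝ) ≤ i.2.2 := by exact_mod_cast hi3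
    have h2 := hm₀
    rw [div_lt_iff₀ he] at h2
    rw [div_mul_eq_mul_div, div_le_iff₀ (by positivity)]
    nlinarith [mul_le_mul_of_nonneg_right h1 he.le]
  have h1 := mul_le_mul_of_nonneg_left hA ht0.le
  have h2 := mul_le_mul_of_nonneg_left hB ht0.le
  have e4 : t * (4 * C * ε * p ^ 2 + K / ((i.2.2 : ℝ) + 1)) * 2 =
      8 * C * ε * t * p ^ 2 + K / ((i.2.2 : ℝ) + 1) * (2 * t) := by ring
  linarith

end Vale.Agent.P096.III.Pinned
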